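import Vale.Agent.P144Y.Defs
import Vale.Agent.P144S.B.Odd

/-!
The normalisation for any number of spins.
-/

namespace Vale.Agent.P144Y.B

open Finset Filter Topology Metric Vale.Agent.P144 Vale.Agent.P144Q
open Vale.Agent.P144.H170 (pt bx mem_bx pt_fl_norm ev_nf)
open Vale.Agent.P144.AL (cnr mem_cnr fcs srcs)
open Vale.Agent.P144S.B (InB cut mem_cut box_conn blk_cut mm fl_pt inB_of_near near_of_inB
  exists_bd diag rt_mono MM_le_two MM_bx)

theorem cn_mono {P Q : Finset Site} (h : P ⊆ Q) {x y : Site} (k : Cn Q x y) : Cn P x y :=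
  rt_mono k fun _ _ e => ⟨fun h' => e.1 (h h'), e.2⟩

theorem kg_of_cn {P : Finset Site} {x y : Site} (k : Cn P x y) : Kg P x y :=
  rt_mono k fun x y k => by
    have := abs_nonneg (x.1 - y.1)
    have := abs_nonneg (x.2 - y.2)
    exact ⟨k.1, by linarith [k.2], by linarith [k.2]⟩

theorem cut_sub (P : Finset Site) (c : Site) (m : ℕ) : cut P c m ⊆ P :=
  fun _ hx => (mem_cut.1 hx).1

theorem cn_box (P : Finset Site) {c v w : Site} {m : ℕ} (hv : InB c m v) (hw : InB c m w) :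
    Cn (cut P c m) v w :=
  rt_mono (box_conn hw _ v rfl hv) fun _ _ h => ⟨fun h' => (mem_cut.1 h').2 h.1, h.2⟩

/-- An even number of disorders in one component is invisible. -/
theorem MM_even (hM : SMM) {P : Finset Site} {o : Site} (R : Multiset Site) :
    ∀ (m : ℕ) (C : Multiset Site), Multiset.card C = 2 * m → (∀ x ∈ C, x ∉ P ∧ Cn P x o) →
      MM P (C + R) = MM P R := by
  intro m
  induction m with
  | zero =>
    intro C h _
    rw [Multiset.card_eq_zero.1 h, zero_add]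
  | succ m ih =>
    intro C h k
    obtain ⟨x, hx⟩ := Multiset.card_pos_iff_exists_mem.1 (show 0 < Multiset.card C by lia)
    obtain ⟨C₁, rfl⟩ := Multiset.exists_cons_of_mem hx
    rw [Multiset.card_cons] at h
    obtain ⟨y, hy⟩ := Multiset.card_pos_iff_exists_mem.1 (show 0 < Multiset.card C₁ by lia)
    obtain ⟨C₂, rfl⟩ := Multiset.exists_cons_of_mem hy
    rw [Multiset.card_cons] at h
    have k1 := k x (by simp)
    have k2 := k y (by simp)
    rw [Multiset.cons_add, Multiset.cons_add, hM.con P x o _ k1.1 k1.2, Multiset.cons_swap,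
      hM.con P y o _ k2.1 k2.2, hM.dbl]
    exact ih C₂ (by lia) fun z hz => k z (by simp [hz])

theorem MM_bx' {c : Site} {m : ℕ} (R C : Multiset Site) (h : ∀ f ∈ R, f ∉ bx c m) :
    H436.MM (bx c m) (C + R) = H436.MM (bx c m) C := by
  induction R using Multiset.induction_on with
  | empty => rw [add_zero]
  | cons f R ih =>
    rw [Multiset.add_cons, MM_bx (h f (by simp))]
    exact ih fun g hg => h g (by simp [hg])

theorem ev_out {D : Set ℂ} {P : ℝ → Finset Site} (hP : FamP D P) {z₀ : ℂ}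
    (hre : ∀ z ∈ D, z.re ≤ z₀.re) {δ : ℝ} (hδ : 0 < δ) :
    ∀ᶠ a in 𝓝[>] (0 : ℝ), ∃ o ∉ P a, InB (fl a z₀) (mm δ a) o := by
  filter_upwards [hP.1.sub (δ / 8) (by positivity),
    P144P.ev_le (c := δ / 8) (by positivity)] with a h2 ⟨ha, h3⟩
  have h4 := pt_fl_norm ha (z₀ + (δ / 2 : ℝ))
  refine ⟨fl a (z₀ + (δ / 2 : ℝ)), fun h => ?_, inB_of_near ha ?_ (mem_cnr.2 (Or.inl rfl))⟩
  · obtain ⟨z, hz, h5⟩ := h2 _ h
    have h6 := (Complex.abs_re_le_norm _).trans h4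
    have h7 := (Complex.abs_re_le_norm _).trans h5
    have h8 := hre z hz
    simp only [Complex.sub_re, Complex.add_re, Complex.ofReal_re] at h6 h7
    linarith [(abs_le.1 h6).1, (abs_le.1 h7).2]
  · have h5 := norm_sub_le_norm_sub_add_norm_sub (pt a (fl a (z₀ + (δ / 2 : ℝ))))
      (z₀ + (δ / 2 : ℝ)) z₀
    rw [add_sub_cancel_left, Complex.norm_real, Real.norm_of_nonneg (by positivity)] at h5
    linarith

theorem lc_cut {P : Finset Site} {a r δ : ℝ} {z₀ : ℂ} {o : Site} (ha : 0 < a) (hδ : 0 ≤ δ)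
    (hr : 8 * δ + 40 * a ≤ r / 2) (ho : o ∉ P) (ho' : InB (fl a z₀) (mm δ a) o)
    (h : ∀ x ∉ P, ∀ y ∉ P, ‖pt a x - pt a y‖ ≤ r → Cn P x y) :
    ∀ x ∉ cut P (fl a z₀) (mm δ a), ∀ y ∉ cut P (fl a z₀) (mm δ a),
      ‖pt a x - pt a y‖ ≤ r / 2 → Cn (cut P (fl a z₀) (mm δ a)) x y := by
  have k : ∀ x y, InB (fl a z₀) (mm δ a) x → ‖pt a x - pt a y‖ ≤ r / 2 →
      ‖pt a o - pt a y‖ ≤ r := fun x y hx hxy => by
    have d1 := near_of_inB ha hδ hx
    have d2 := near_of_inB ha hδ ho'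
    have d3 := norm_sub_le_norm_sub_add_norm_sub (pt a o) z₀ (pt a y)
    have d4 := norm_sub_le_norm_sub_add_norm_sub z₀ (pt a x) (pt a y)
    rw [norm_sub_rev z₀ (pt a x)] at d4
    linarith
  intro x hx y hy hxy
  rw [mem_cut, not_and_or, not_not] at hx hy
  rcases hx with hx | hx <;> rcases hy with hy | hy
  · exact cn_mono (cut_sub _ _ _) (h x hx y hy (by linarith [norm_nonneg (pt a x - pt a y)]))
  · refine (cn_mono (cut_sub _ _ _) (h x hx o ho ?_)).trans (cn_box P ho' hy)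
    rw [norm_sub_rev] at hxy ⊢
    exact k y x hy hxy
  · exact (cn_box P hx ho').trans (cn_mono (cut_sub _ _ _) (h o ho y hy (k x y hx hxy)))
  · exact cn_box P hx hy

/-- Removing a small box at the boundary hardly changes the correlations. -/
theorem cut_near {D : Set ℂ} {P : ℝ → Finset Site} (hP : FamP D P) {X S : Finset ℂ}
    (hN : NormW D X S) {z₀ : ℂ} (h0 : z₀ ∉ D) (hre : ∀ z ∈ D, z.re ≤ z₀.re) {ε : ℝ}
    (hε : 0 < ε) : ∃ δ > (0 : ℝ), ∀ᶠ a in 𝓝[>] (0 : ℝ),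
      GW (fun a => cut (P a) (fl a z₀) (mm δ a)) X S a ≤ (1 + ε) * GW P X S a := by
  classical
  by_contra hc
  push Not at hc
  obtain ⟨k, T, hT, hQ, hk⟩ := diag (Q := fun j a =>
    (1 + ε) * GW P X S a < GW (fun a => cut (P a) (fl a z₀) (mm (1 / ((j : ℝ) + 1)) a)) X S a ∧
      ∃ o ∉ P a, InB (fl a z₀) (mm (1 / ((j : ℝ) + 1)) a) o) fun j =>
    (hc _ (by positivity)).and_eventually (ev_out hP hre (by positivity))
  set P' : ℝ → Finset Site := fun a =>
    if a ∈ T then cut (P a) (fl a z₀) (mm (1 / ((k a : ℝ) + 1)) a) else P a with hP'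
  have hlc : LC (𝓝[>] 0) (fun a => a) P' := by
    obtain ⟨r, hr, h⟩ := hP.2
    obtain ⟨n, hn⟩ := exists_nat_one_div_lt (show 0 < r / 32 by positivity)
    refine ⟨r / 2, by positivity, ?_⟩
    filter_upwards [h, hk n, P144P.ev_le (c := r / 160) (by positivity)] with a h1 h2 ⟨ha, h3⟩
    simp only [hP']
    split_ifs with h4
    · obtain ⟨o, ho, ho'⟩ := (hQ a h4).2
      have h9 : 1 / ((k a : ℝ) + 1) ≤ 1 / ((n : ℝ) + 1) := Nat.one_div_le_one_div (h2 h4)
      exact lc_cut ha (by positivity) (by linarith) ho ho' h1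
    · exact fun x hx y hy h5 => h1 x hx y hy (by linarith)
  have hF : FamP D P' := by
    refine ⟨⟨fun z hz => ?_, fun η hη => (hP.1.sub η hη).mono fun a h x hx => h x ?_,
      hlc.imp fun r h => ⟨h.1, h.2.mono fun a h x hx y hy e => kg_of_cn (h x hx y hy e)⟩⟩, hlc⟩
    · obtain ⟨r, hr, h1⟩ := (ev_nf (P := fun a x => x ∈ P a)).1 (hP.1.inn z hz)
      have hd : 0 < ‖z - z₀‖ := norm_pos_iff.2 (sub_ne_zero.2 fun e => h0 (e ▸ hz))
      obtain ⟨n, hn⟩ := exists_nat_one_div_lt (show 0 < ‖z - z₀‖ / 16 by positivity)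
      refine (ev_nf (P := fun a x => x ∈ P' a)).2 ⟨min r (‖z - z₀‖ / 4), by positivity, ?_⟩
      filter_upwards [h1, hk n, P144P.ev_le (c := ‖z - z₀‖ / 80) (by positivity)]
        with a h2 h3 ⟨ha, h4⟩ x hx
      have h5 := h2 x (hx.trans (min_le_left _ _))
      simp only [hP']
      split_ifs with h6
      · refine mem_cut.2 ⟨h5, fun h7 => ?_⟩
        have h8 := near_of_inB ha (by positivity) h7
        have h9 : 1 / ((k a : ℝ) + 1) ≤ 1 / ((n : ℝ) + 1) :=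
          Nat.one_div_le_one_div (h3 h6)
        have h10 := norm_sub_le_norm_sub_add_norm_sub z (pt a x) z₀
        rw [norm_sub_rev z (pt a x)] at h10
        linarith [hx.trans (min_le_right _ _)]
      · exact h5
    · simp only [hP'] at hx
      split_ifs at hx
      · exact (mem_cut.1 hx).1
      · exact hx
  obtain ⟨g, hg, hl⟩ := hN
  have h1 := ((hl P hP).const_mul (1 + ε)).sub (hl P' hF)
  have h2 : 0 < (1 + ε) * g - g := by nlinarith
  obtain ⟨a, ha, h3⟩ := (hT.and_eventually (h1.eventually (lt_mem_nhds h2))).exists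
  have h4 := (hQ a ha).1
  have h5 : GW P' X S a =
      GW (fun a' => cut (P a') (fl a' z₀) (mm (1 / ((k a : ℝ) + 1)) a')) X S a := by
    unfold GW
    simp only [hP', if_pos ha]
  linarith

/-- A small cluster near the boundary is almost independent of the rest. -/
theorem clu (hM : SMM) {D : Set ℂ} {P : ℝ → Finset Site} (hD : Std D) (hP : FamB D P)
    {X S : Finset ℂ} (hS : ∀ z ∈ S, z ∈ Ext D) (hX : ∀ z ∈ X, z ∈ D) (hN : NormW D X S) {n : ℕ}
    (hn : Even n) {ε : ℝ} (hε : 0 < ε) :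
    ∃ C : Finset ℂ, (∀ w ∈ C, w ∈ D) ∧ Disjoint C X ∧ C.card = n ∧ ∀ᶠ a in 𝓝[>] (0 : ℝ),
      MM (P a) (fm a C + (fm a X + fm a S)) ≤
        (1 + ε) * (MM (P a) (fm a X + fm a S) * MM (P a) (fm a C)) := by
  classical
  obtain ⟨z₀, hcl, h0, hre⟩ := exists_bd hD.op hD.small hD.ne
  have hη0 : 0 < ε / (2 + ε) := by positivity
  have hη1 : ε / (2 + ε) < 1 := by rw [div_lt_one (by positivity)]; linarith
  have hη2 : 1 + ε / (2 + ε) = (1 + ε) * (1 - ε / (2 + ε)) := by field_simp; ring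
  generalize ε / (2 + ε) = η at hη0 hη1 hη2
  obtain ⟨δ, hδ, hcut⟩ := cut_near hP.1 hN h0 hre hη0
  have hU : IsOpen (ball z₀ δ ∩ (X : Set ℂ)ᶜ) :=
    isOpen_ball.inter X.finite_toSet.isClosed.isOpen_compl
  obtain ⟨z, hz, hzD⟩ := mem_closure_iff.1 hcl _ hU ⟨mem_ball_self hδ, fun e => h0 (hX _ e)⟩
  obtain ⟨r, hr, hb⟩ := nhds_basis_closedBall.mem_iff.1 ((hU.inter hD.op).mem_nhds ⟨hz, hzD⟩)
  obtain ⟨ρ, hρ, rfl⟩ : ∃ ρ > (0 : ℝ), r = 9 * ρ := ⟨r / 9, by positivity, by ring⟩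
  obtain ⟨y, hinj, hy, hsw⟩ := A.sandwich hn hη0 hη1.le z hρ
  have hy' : ∀ i, y i ∈ closedBall z (9 * ρ) := fun i =>
    closedBall_subset_closedBall (by linarith) (hy i)
  refine ⟨univ.image y, fun w hw => ?_, disjoint_left.2 fun w hw hw' => ?_,
    AL.card_im ⟨_, 0, y, Fin.elim0, Fin.elim0⟩ hinj, ?_⟩
  · obtain ⟨i, _, rfl⟩ := mem_image.1 hw
    exact (hb (hy' i)).2
  · obtain ⟨i, _, rfl⟩ := mem_image.1 hw
    exact (hb (hy' i)).1.2 hw'
  have hfar : ∀ w, w ∈ X ∨ w ∈ S → 9 * ρ < ‖w - z‖ := fun w hw => by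
    by_contra hc
    have := hb (show w ∈ closedBall z (9 * ρ) by
      rw [mem_closedBall, dist_eq_norm]; exact not_lt.1 hc)
    exact hw.elim this.1.2 fun h => (hS w h).2 (subset_closure this.2)
  filter_upwards [hcut, hsw, P144P.ev_le (c := ρ / 4) (by positivity),
    hP.2.2.cpt (isCompact_closedBall z (9 * ρ)) fun w hw => (hb hw).2]
    with a k1 k2 ⟨ha, k5⟩ k6
  have eC : fm a (univ.image y) = fcs (srcs fun i => fl a (y i)) :=
    AL.Rp_eq ⟨_, 0, y, Fin.elim0, Fin.elim0⟩ hinj a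
  rw [eC]
  set C := fcs (srcs fun i => fl a (y i)) with hC
  set P₁ := cut (P a) (fl a z₀) (mm δ a) with hP₁
  set L := bx (fl a z) (⌈ρ / a⌉₊ + 1) with hL
  have hL1 : ∀ x ∈ L, pt a x ∈ closedBall z (8 * ρ) := fun x hx => by
    have := A.bx_ball ha k5 z 1 x (by rwa [one_mul])
    refine closedBall_subset_closedBall (le_of_eq ?_) this
    norm_num
  have hL2 : ∀ x ∈ L, pt a x ∈ closedBall z (9 * ρ) := fun x hx =>
    closedBall_subset_closedBall (by linarith) (hL1 x hx)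
  have hL0 : ∀ x ∈ L, ∀ f, x ∈ cnr f → InB (fl a z₀) (mm δ a) f := fun x hx f hf =>
    inB_of_near ha (by
      have := (hb (hL2 x hx)).1.1
      rw [mem_ball, dist_eq_norm] at this
      exact this.le) hf
  have hL4 : ∀ f ∈ fm a X + fm a S, f ∉ L := fun f hf h => by
    obtain ⟨w, hw, rfl⟩ : ∃ w, (w ∈ X ∨ w ∈ S) ∧ fl a w = f := by
      rcases Multiset.mem_add.1 hf with e | e
      · obtain ⟨w, hw, e⟩ := Multiset.mem_map.1 e
        exact ⟨w, Or.inl hw, e⟩
      · obtain ⟨w, hw, e⟩ := Multiset.mem_map.1 e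
        exact ⟨w, Or.inr hw, e⟩
    have h1 := hL1 _ h
    rw [mem_closedBall, dist_eq_norm] at h1
    have h2 := pt_fl_norm ha w
    have h3 := norm_sub_le_norm_sub_add_norm_sub w (pt a (fl a w)) z
    rw [norm_sub_rev w (pt a _)] at h3
    linarith [hfar w hw]
  have hsub : Vx P₁ ⊆ Vx (P a) :=
    biUnion_subset_biUnion_of_subset_left _ fun x hx => (mem_cut.1 hx).1
  have hdis : Disjoint (Vx P₁) L := disjoint_left.2 fun x hx hx' => by
    obtain ⟨f, hf, h⟩ := mem_biUnion.1 hx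
    exact (mem_cut.1 hf).2 (hL0 x hx' f h)
  have hCin : ∀ x ∈ C, InB (fl a z₀) (mm δ a) x := fun x hx => by
    obtain ⟨i, rfl⟩ := (P144P.mem_srcs _).1 hx
    refine hL0 _ (A.bx_fl ha ?_) _ (mem_cnr.2 (Or.inl rfl))
    have := hy i
    rwa [mem_closedBall, dist_eq_norm] at this
  have hc0 : InB (fl a z₀) (mm δ a) (fl a z₀) := by
    unfold InB
    omega
  obtain ⟨m, hm⟩ := hn
  have e1 := MM_le_two hsub (fun x hx => k6 x (hL2 x hx)) hdis (C + (fm a X + fm a S))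
  rw [MM_bx' _ _ hL4, ← hM.blk _ _ (blk_cut _ _ (hP.2.1 a)), ← hM.blk _ _ (hP.2.1 a),
    MM_even hM (o := fl a z₀) _ m C (by rw [hC, P144P.card_srcs]; lia)
      fun x hx => ⟨fun h => (mem_cut.1 h).2 (hCin x hx), cn_box _ (hCin x hx) hc0⟩] at e1
  have e2 := k2 L (Vx (P a)) fun x hx => by
    have := A.bx_fl ha (show ‖pt a x - z‖ ≤ ρ by rwa [mem_closedBall, dist_eq_norm] at hx)
    rwa [fl_pt ha] at this
  rw [← hM.blk _ _ (hP.2.1 a)] at e2
  unfold GW at k1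
  rw [mul_left_comm, mul_le_mul_iff_right₀ (Real.rpow_pos_of_pos ha _)] at k1
  have p1 := H436.MM_pos L C
  have p2 := hM.pos (P a) (fm a X + fm a S)
  calc _ ≤ MM P₁ (fm a X + fm a S) * H436.MM L C := e1
    _ ≤ (1 + η) * MM (P a) (fm a X + fm a S) * H436.MM L C :=
      mul_le_mul_of_nonneg_right k1 p1.le
    _ = (1 + ε) * (MM (P a) (fm a X + fm a S) * ((1 - η) * H436.MM L C)) := by
      rw [hη2]; ring
    _ ≤ _ := mul_le_mul_of_nonneg_left (mul_le_mul_of_nonneg_left e2 p2.le) (by linarith)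

theorem cv_of (hM : SMM) {D : Set ℂ} {P : ℝ → Finset Site} {S : Finset ℂ} (hD : Std D)
    (hP : FamB D P) (hr : RatioX D P) (hE : NormE D fun a => Vx (P a))
    (hS : ∀ z ∈ S, z ∈ Ext D) {X X₀ : Finset ℂ} (hX : ∀ z ∈ X, z ∈ D) (hX₀ : ∀ z ∈ X₀, z ∈ D)
    (hN : NormW D X₀ S) {n : ℕ} (hn : Even n) (hm : X.card = n + X₀.card) : Cv P X S := by
  classical
  have key : ∀ ε > (0 : ℝ), ∃ (H : ℝ → ℝ) (w : ℝ), 0 < w ∧ Tendsto H (𝓝[>] 0) (𝓝 w) ∧
      ∀ᶠ a in 𝓝[>] (0 : ℝ), H a ≤ GW P X S a ∧ GW P X S a ≤ (1 + ε) * H a := by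
    intro ε hε
    obtain ⟨C, hC, hxC, hc, h⟩ := clu hM hD hP hS hX₀ hN hn hε
    obtain ⟨ρ, hρ, h1⟩ := hr X (C.disjUnion X₀ hxC) S hX (fun w hw => by
      rcases mem_disjUnion.1 hw with h | h
      · exact hC w h
      · exact hX₀ w h) hS (by rw [card_disjUnion, hc, hm])
    obtain ⟨g, hg, h2⟩ := hE C hC (hc ▸ hn)
    obtain ⟨g', hg', h3⟩ := hN
    refine ⟨_, _, mul_pos hρ (mul_pos hg' hg), h1.mul ((h3 P hP.1).mul h2), ?_⟩
    filter_upwards [h, self_mem_nhdsWithin] with a k1 ha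
    have ha : 0 < a := ha
    have eY : fm a (C.disjUnion X₀ hxC) + fm a S = fm a C + (fm a X₀ + fm a S) := by
      unfold fm
      rw [disjUnion_val, Multiset.map_add, add_assoc]
    have k3 := hM.gks (P a) (fm a C) (fm a X₀ + fm a S)
    rw [mul_comm] at k3
    have ew : a ^ (-(X.card : ℝ) / 8) = a ^ (-(X₀.card : ℝ) / 8) * a ^ (-(C.card : ℝ) / 8) := by
      rw [← Real.rpow_add ha, hm, hc]
      congr 1
      push_cast
      ring
    have eC : Mn (fun a => Vx (P a)) a C = MM (P a) (fm a C) := (hM.blk _ _ (hP.2.1 a)).symm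
    rw [eY]
    unfold GW Gn
    rw [eC, ew]
    have p1 := hM.pos (P a) (fm a X + fm a S)
    have p2 := hM.pos (P a) (fm a C + (fm a X₀ + fm a S))
    have p3 := Real.rpow_pos_of_pos ha (-(X₀.card : ℝ) / 8)
    have p4 := Real.rpow_pos_of_pos ha (-(C.card : ℝ) / 8)
    generalize MM (P a) (fm a X + fm a S) = mX at p1 ⊢
    generalize MM (P a) (fm a C + (fm a X₀ + fm a S)) = mY at p2 k1 k3 ⊢
    generalize MM (P a) (fm a X₀ + fm a S) = m1 at k1 k3 ⊢
    generalize MM (P a) (fm a C) = mC at k1 k3 ⊢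
    generalize a ^ (-(X₀.card : ℝ) / 8) = w1 at p3 ⊢
    generalize a ^ (-(C.card : ℝ) / 8) = w2 at p4 ⊢
    have q : 0 < mX / mY * (w1 * w2) := by positivity
    have e1 : w1 * w2 * mX = mX / mY * (w1 * w2) * mY := by field_simp
    have e2 : mX / mY * (w1 * m1 * (w2 * mC)) = mX / mY * (w1 * w2) * (m1 * mC) := by ring
    rw [e1, e2]
    exact ⟨mul_le_mul_of_nonneg_left k3 q.le,
      (mul_le_mul_of_nonneg_left k1 q.le).trans_eq (by ring)⟩
  obtain ⟨H, w, -, h1, h2⟩ := key 1 one_pos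
  refine H436.lim_of_factor (C := 2 * (w + 1)) ?_ key
  filter_upwards [h2, h1.eventually_lt_const (lt_add_one w)] with a h3 h4
  linarith [h3.2]

/-- **Any number of spins.** -/
theorem sclu (hM : SMM) : SClu := by
  intro D P S hD hP hr hE hS h0 h1 X hX
  rcases Nat.even_or_odd X.card with he | ⟨m, hm⟩
  · exact cv_of hM hD hP hr hE hS hX (by simp) h0 he (by simp)
  · obtain ⟨x, hx⟩ := hD.ne
    exact cv_of hM hD hP hr hE hS hX (by simpa using hx) (h1 x hx) (even_two_mul m)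
      (by rw [card_singleton, hm])

end Vale.Agent.P144Y.B
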